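import Vale.Agent.P090.K.Main

/-!
# P090: a uniformly discrete metric space whose Lipschitz-free space fails the BAP
-/

namespace Vale.Agent.Results.P090.Disproof

open Vale.Agent.P090

/-- There is a metric space `M` in which distinct points are at distance at least `1` and such that,
for every base point `o` and every real `lam`, the Lipschitz-free space `freeSpace M o` fails the
`lam`-bounded approximation property. -/
theorem result :
    ∃ (M : Type) (_ : MetricSpace M), (∀ x y : M, x ≠ y → 1 ≤ dist x y) ∧
      ∀ (o : M) (lam : ℝ), ¬ HasBAP lam (freeSpace M o) :=
  exists_uniformly_discrete_not_hasBAP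

end Vale.Agent.Results.P090.Disproof
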