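import Vale.Agent.P090.Universal

/-!
# P090: failure of the BAP for the Lipschitz-free space of a uniformly discrete metric space,
stated with Mathlib notions only (the free space is described by its universal property)
-/

namespace Vale.Agent.Results.P090.DisproofUniversal

open Vale.Agent.P090

/-- There is a nonempty metric space `M` in which distinct points are at distance at least `1` such
that for every base point `o`:

* there is a Banach space `X` with a map `δ : M → X` such that `δ o = 0`, `‖δ x - δ y‖ = dist x y`,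
  the linear span of `δ(M)` is dense, and every `K`-Lipschitz `f : M → ℝ` with `f o = 0` factors as
  `f = φ ∘ δ` with a bounded linear functional `φ` of norm at most `K`
  (that is, `(X, δ)` is the Lipschitz-free space of `(M, o)`);
* every such Banach space `X` fails the `lam`-bounded approximation property for every real `lam`. -/
theorem result :
    ∃ (M : Type) (_ : MetricSpace M), Nonempty M ∧ (∀ x y : M, x ≠ y → 1 ≤ dist x y) ∧
      ∀ o : M,
        (∃ (X : Type) (_ : NormedAddCommGroup X) (_ : NormedSpace ℝ X) (_ : CompleteSpace X)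
          (δ : M → X), δ o = 0 ∧ (∀ x y, ‖δ x - δ y‖ = dist x y) ∧
            Dense ((Submodule.span ℝ (Set.range δ) : Submodule ℝ X) : Set X) ∧
            ∀ (f : M → ℝ) (K : NNReal), LipschitzWith K f → f o = 0 →
              ∃ φ : X →L[ℝ] ℝ, ‖φ‖ ≤ K ∧ ∀ x, φ (δ x) = f x) ∧
        ∀ (X : Type) [NormedAddCommGroup X] [NormedSpace ℝ X] [CompleteSpace X] (δ : M → X),
          δ o = 0 → (∀ x y, ‖δ x - δ y‖ = dist x y) →
          Dense ((Submodule.span ℝ (Set.range δ) : Submodule ℝ X) : Set X) →
          (∀ (f : M → ℝ) (K : NNReal), LipschitzWith K f → f o = 0 →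
            ∃ φ : X →L[ℝ] ℝ, ‖φ‖ ≤ K ∧ ∀ x, φ (δ x) = f x) →
          ∀ lam : ℝ, ¬ ∀ C : Set X, IsCompact C → ∀ ε : ℝ, 0 < ε → ∃ T : X →L[ℝ] X,
            FiniteDimensional ℝ (LinearMap.range (T : X →ₗ[ℝ] X)) ∧ ‖T‖ ≤ lam ∧
              ∀ u ∈ C, ‖T u - u‖ < ε := by
  obtain ⟨M, hM, hne, hsep, hfail⟩ := exists_uniformly_discrete_no_model_hasBAP
  refine ⟨M, hM, hne, hsep, fun o => ⟨exists_model M o, ?_⟩⟩
  intro X _ _ _ δ h0 hd hdense hext lam hbap
  refine hfail o X δ h0 (fun x y => (hd x y).le) hdense hext lam ?_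
  intro C hC ε hε
  obtain ⟨T, h1, h2, h3⟩ := hbap C hC (ε / 2) (half_pos hε)
  exact ⟨T, h1, h2, ε / 2, half_lt_self hε, fun u hu => (h3 u hu).le⟩

end Vale.Agent.Results.P090.DisproofUniversal
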