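import Vale.Agent.P090.SqrtBound

/-!
P090: a quantitative bound for the bounded approximation property of Lipschitz-free spaces
over bounded uniformly discrete metric spaces.
-/

namespace Vale.Agent.Results.P090.SqrtBound

open Vale.Agent.P090

/-- If `M` is `θ`-separated (`θ > 0`) and lies in the closed ball of radius `R` around the base
point `o`, then the Lipschitz-free space `F(M)` has the `λ`-BAP with `λ = 1 + √(2R/θ)`. -/
theorem result (M : Type*) [MetricSpace M] (o : M) (θ R : ℝ) (hθ : 0 < θ)
    (hsep : ∀ x y : M, x ≠ y → θ ≤ dist x y) (hR : ∀ x : M, dist x o ≤ R) :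
    HasBAP (1 + Real.sqrt (2 * R / θ)) (freeSpace M o) :=
  hasBAP_sqrt hθ hsep hR

end Vale.Agent.Results.P090.SqrtBound
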